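import Vale.Agent.P013.Fin

namespace Vale.Agent.Results.P013.Jacobsthal

/-- `m` is admissible for `n`: `m` is positive and every set of `m` consecutive integers
contains an integer coprime to `n`. -/
def Adm (n : ℕ) : Set ℕ := {m | 0 < m ∧ ∀ a : ℤ, ∃ i : ℕ, i < m ∧ IsCoprime (a + i) (n : ℤ)}

theorem result :
    (∃ C : ℝ, ∀ k : ℕ, 1 ≤ k → ∀ n : ℕ, 1 ≤ n → n.primeFactors.card ≤ k →
      ∃ j : ℕ, IsLeast (Adm n) j ∧ (j : ℝ) ≤ C * (k : ℝ) ^ 2) ∧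
    ∀ A : ℕ, ∃ C : ℝ, ∀ k : ℕ, 2 ≤ k → ∀ n : ℕ, 1 ≤ n → n.primeFactors.card ≤ k →
      ∃ j : ℕ, IsLeast (Adm n) j ∧ (j : ℝ) ≤ C * (k : ℝ) ^ 2 / Real.log k ^ A := by
  have key : ∀ {n m : ℕ}, m ∈ Adm n → ∃ j : ℕ, IsLeast (Adm n) j ∧ (j : ℝ) ≤ m := fun {n m} h =>
    ⟨sInf (Adm n), ⟨Nat.sInf_mem ⟨m, h⟩, fun _ hx => Nat.sInf_le hx⟩, by
      exact_mod_cast Nat.sInf_le h⟩
  constructor
  · obtain ⟨C, -, h⟩ := Vale.Agent.P013.fin_main 0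
    refine ⟨C, fun k hk n hn hc => ?_⟩
    obtain ⟨m, h0, h1, h2⟩ := h k n hk hn hc
    obtain ⟨j, hj, hm⟩ := key (n := n) ⟨h0, h2⟩
    exact ⟨j, hj, hm.trans (by simpa using h1)⟩
  · intro A
    obtain ⟨C, hC, h⟩ := Vale.Agent.P013.fin_main A
    refine ⟨C, fun k hk n hn hc => ?_⟩
    obtain ⟨m, h0, h1, h2⟩ := h k n (by omega) hn hc
    obtain ⟨j, hj, hm⟩ := key (n := n) ⟨h0, h2⟩
    have h3 : (2 : ℝ) ≤ k := by exact_mod_cast hk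
    have h4 : 0 < Real.log k := Real.log_pos (by linarith)
    refine ⟨j, hj, hm.trans (h1.trans ?_)⟩
    gcongr
    linarith

end Vale.Agent.Results.P013.Jacobsthal
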